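import Vale.Agent.P174.Bdl.D
import Vale.Agent.P174.H717.Fin
import Vale.Agent.P174.T2.Full

/-!
P174: Howie's conjecture holds for all groups: every finite system of equations over a group whose
exponent-sum matrix has rank equal to the number of equations is solvable over the group.
-/

namespace Vale.Agent.Results.P174.Howie

open Vale.Agent.P174

universe u

/-- **Howie's conjecture.** For every group `G`, every system `w_1, …, w_m` in `G * F_n` whose
exponent-sum matrix has rank `m` over `ℚ` is solvable over `G`. -/
theorem result (G : Type u) [Group G] (m n : ℕ) (w : Fin m → Words G n) (hw : FullRank ℚ w) :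
    SolvableOver w :=
  H717.howie_of_sol (fun k => T2.solS (Fin k)) G m n w hw

end Vale.Agent.Results.P174.Howie
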